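import Vale.Agent.P352X.EG.POT
import Vale.Agent.P352Z.P352X.CA.W2
import Vale.Agent.P352Z.P352X.EB.Wire

open Vale.Agent.P352G

/-!
# P352X, block EG, row POT: the potential
-/

set_option linter.all false

open MeasureTheory Filter Topology
open scoped SchwartzMap ComplexConjugate ContDiff

namespace Vale.Agent.P352X.EG

open Vale.Agent.P352X.EB

open Vale.Agent.P352 Vale.Agent.P352.GF Vale.Agent.P352.BW Vale.Agent.P352.H246
open Vale.Agent.P352.H496 Vale.Agent.P352.H755 Vale.Agent.P352.H15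
open UniformSpace (Completion)
open ContinuousLinearMap (adjoint)

noncomputable section

variable {D : Type*} [NormedAddCommGroup D] [InnerProductSpace ℂ D] [GrD D]

namespace Pt

open CTXp in
/-- the context with a given net -/
theorem ctxNZ (Q : Theory D) (T : Ix → Ix → Fld D) (A : (V → V) → D → D)
    (N : Set V → VonNeumannAlgebra (Completion D)) (hT : Q.IsStress T) (hP : ND.PCh Q T A)
    (hG : TfGenZ Q) (hN : LNmZ Q A N) (hU : UVac Q) :
    ∃ c : CtxZ D, c.Q = Q ∧ c.T = T ∧ c.N = N ∧ c.A = A ∧ c.tp := by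
  obtain ⟨wp, wm, t, hTP⟩ := tp_ofZ Q T hT A hP hG N hN hU
  obtain ⟨c, h1, h2, h3, h4, h5⟩ := ctx_rowZ D Q T A N wp wm t True hT hP hG hN hU fun _ => hTP
  exact ⟨c, h1, h2, h3, h4, h5 ▸ trivial⟩

end Pt

open Pt

end

end Vale.Agent.P352X.EG
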